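import Vale.Agent.P281.H389.TG.Bd
import Vale.Agent.P281.H969.TGB.Spec

/-!
# P281, project T-GB (helper389), block B5: the transported form is bounded
-/

open Set Filter Metric MeasureTheory Vale.Agent.P281 Vale.Agent.P281.H713 Vale.Agent.P272.K
open Vale.Agent.P281.MF Vale.Agent.P281.ISO Vale.Agent.P281.H713.TZ
open Vale.Agent.P281.H64.TU (Tame KTame TameOK RelFormT HasFormsT)
open Vale.Agent.P281.H969.TG Vale.Agent.P281.H389.TG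

open scoped Topology ContDiff Manifold ComplexConjugate ComplexOrder ENNReal NNReal

set_option linter.all false

noncomputable section

namespace Vale.Agent.P281.H389.TGB

variable {n p d : ℕ} {X₁ Y₁ X Y : Type} [TopologicalSpace X₁] [ChartedSpace (Cm n) X₁]
  [IsManifold 𝓘(ℂ, Cm n) ω X₁] [TopologicalSpace Y₁] [ChartedSpace (Cm p) Y₁]
  [IsManifold 𝓘(ℂ, Cm p) ω Y₁] [TopologicalSpace X] [ChartedSpace (Cm n) X]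
  [IsManifold 𝓘(ℂ, Cm n) ω X] [TopologicalSpace Y] [ChartedSpace (Cm p) Y]
  [IsManifold 𝓘(ℂ, Cm p) ω Y]

variable {u : X₁ → X} {v : Y₁ → Y} {f₁ : X₁ → Y₁} {f : X → Y} {N : ℕ} {Θ₁ : X₁ → ℂ}
  {S₁ : Set Y₁} {S₀ : Set Y} {e₀ : Cm n ≃L[ℂ] (Cm p × Cm d)} {𝒜₁ : Set (Set X₁)}
  {κ₁ : Set X₁ → ℕ} {T' : Tame (Cm d) X₁} {Δ₁ : Set X₁ → ℝ} {Δ : Set X → ℝ} {B : Set X}

/-- **the local bound** -/
theorem bd (hu : ∀ w, HolM (Cm n) (Cm n) u w) (hv : ∀ w, HolM (Cm p) (Cm p) v w)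
    (hf₁ : ∀ w, HolM (Cm n) (Cm p) f₁ w) (hcomm : ∀ w, f (u w) = v (f₁ w))
    (hR : RelFormT T' f₁ S₁ e₀ N 𝒜₁ κ₁ Θ₁) (h𝒜 : ∀ D ∈ 𝒜₁, Δ₁ D ≠ 0)
    (hκ : ∀ D, (κ₁ D : ℝ) ≤ N * Δ₁ D) (hΔ₁ : J.IsSNC (Cm n) Δ₁) (hΔ : J.IsSNC (Cm n) Δ)
    (hS₀ : IsClosed S₀) (hBc : IsClosed B)
    (hle : ∀ w, v (f₁ w) ∉ S₀ → u w ∉ B → LogLe n u Δ₁ Δ w)
    {x₁ : X₁} {x₀ : X} {y₀ : Y} (hS : f₁ x₁ ∉ S₁) (hS' : v (f₁ x₁) ∉ S₀) (hxB : u x₁ ∉ B)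
    (hx : u x₁ ∈ (chartAt (Cm n) x₀).source) (hy : f (u x₁) ∈ (chartAt (Cm p) y₀).source)
    (T : Finset (Set X)) (hT : ∀ D, D ∈ T ↔ Δ D ≠ 0) (e : Set X → X → ℂ)
    (he : ∀ D ∈ T, IsLocalEq (Cm n) D (e D) (u x₁)) :
    ∃ C : ℝ, 0 ≤ C ∧ ∀ᶠ w in 𝓝 x₁, (∀ D, Δ D ≠ 0 → u w ∉ D) →
      ‖RR n p u v f₁ f N Θ₁ x₀ y₀ w‖ * (∏ D ∈ T, ‖e D (u w)‖ ^ Δ D) ^ N ≤ C := by
  classical
  have hκ' : ∀ D, κ₁ D ≠ 0 → Δ₁ D ≠ 0 := by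
    intro D hD h0
    have h1 := hκ D
    rw [h0, mul_zero] at h1
    have h2 : (0 : ℝ) < κ₁ D := by exact_mod_cast Nat.pos_of_ne_zero hD
    linarith
  set T₁ := hΔ₁.1.toFinset with hT₁d
  have hT₁ : ∀ D, D ∈ T₁ ↔ Δ₁ D ≠ 0 := fun D => by simp [hT₁d]
  obtain ⟨e₁, he₁'⟩ := exists_eqs hΔ₁ x₁
  have he₁ : ∀ D ∈ T₁, IsLocalEq (Cm n) D (e₁ D) x₁ := fun D hD => he₁' D ((hT₁ D).1 hD)
  obtain ⟨H₁, hH₁, hloc⟩ := loc hu hv hf₁ hcomm hR h𝒜 hκ' hS hx hy T₁ hT₁ e₁ he₁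
  obtain ⟨C, hC⟩ := hle x₁ hS' hxB T₁ T e₁ e hT₁ hT he₁ he
  obtain ⟨c, hc, hcc⟩ := ju_change hu hx
  have hBcc : ContinuousAt (fun w => ju (Cm p) v y₀ (f₁ x₁) (f₁ w)) x₁ := by
    have h1 : HolV (Cm p) (ju (Cm p) v y₀ (f₁ x₁)) (f₁ x₁) :=
      ju_hol (mem_chart_source _ _) (by rw [← hcomm]; exact hy) (hv _)
    exact ContinuousAt.comp (g := ju (Cm p) v y₀ (f₁ x₁)) h1.continuousAt (hf₁ x₁).continuousAt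
  set b₀ : ℝ := ‖ju (Cm p) v y₀ (f₁ x₁) (f₁ x₁)‖ + 1 with hb₀
  set h₀ : ℝ := ‖H₁ x₁‖ + 1 with hh₀
  set M : ℝ := ∏ D ∈ T₁, (‖e₁ D x₁‖ + 1) ^ (N * Δ₁ D - κ₁ D) with hM
  have hM0 : 0 ≤ M := Finset.prod_nonneg fun D _ => by positivity
  refine ⟨b₀ ^ N * h₀ * (|C| * c) ^ N * M, by positivity, ?_⟩
  have e1 : ∀ᶠ w in 𝓝 x₁, v (f₁ w) ∉ S₀ := by
    have hvf : ContinuousAt (fun w => v (f₁ w)) x₁ :=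
      ContinuousAt.comp (g := v) (hv _).continuousAt (hf₁ x₁).continuousAt
    exact hvf.eventually (hS₀.isOpen_compl.mem_nhds hS')
  have e0 : ∀ᶠ w in 𝓝 x₁, u w ∉ B :=
    (hu x₁).continuousAt.eventually (hBc.isOpen_compl.mem_nhds hxB)
  have e2 : ∀ᶠ w in 𝓝 x₁, ∀ D ∈ T₁, ‖e₁ D w‖ < ‖e₁ D x₁‖ + 1 := by
    rw [Filter.eventually_all_finset]
    intro D hD
    obtain ⟨W, hW, hxW, h1, -, -⟩ := he₁ D hD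
    have h2 : ContinuousAt (e₁ D) x₁ := ContMDiffAt.continuousAt (h1 x₁ hxW)
    exact h2.norm.eventually_lt_const (by linarith)
  filter_upwards [e0, hloc, hC, hcc, e1, e2, hBcc.norm.eventually_lt_const
    (show ‖ju (Cm p) v y₀ (f₁ x₁) (f₁ x₁)‖ < b₀ by rw [hb₀]; linarith),
    hH₁.continuousAt.norm.eventually_lt_const (show ‖H₁ x₁‖ < h₀ by rw [hh₀]; linarith)]
    with w h0 h1 h2 h3 h4 h5 h6 h7 hw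
  obtain ⟨hdet, hoff⟩ := off hu hΔ₁ hΔ (hle w h4 h0) hw
  obtain ⟨hA0, hne, heq⟩ := h1 hoff hdet
  set A := ju (Cm n) u x₀ x₁ w with hA
  set Bv := ju (Cm p) v y₀ (f₁ x₁) (f₁ w) with hBv
  set P : ℝ := ∏ D ∈ T, ‖e D (u w)‖ ^ Δ D with hP
  set Q : ℝ := ∏ D ∈ T₁, ‖e₁ D w‖ ^ Δ₁ D with hQ
  set q : ℝ := ∏ D ∈ T₁, ‖e₁ D w‖ ^ κ₁ D with hq
  have hpos : ∀ D ∈ T₁, 0 < ‖e₁ D w‖ := fun D hD => norm_pos_iff.2 (hne D hD)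
  have hP0 : 0 ≤ P := Finset.prod_nonneg fun D _ => by positivity
  have hQ0 : 0 ≤ Q := Finset.prod_nonneg fun D _ => by positivity
  have hq0 : 0 < q := Finset.prod_pos fun D hD => pow_pos (hpos D hD) _
  have hA0' : 0 < ‖A‖ ^ N := pow_pos (norm_pos_iff.2 hA0) _
  have h8 : P ≤ |C| * c * ‖A‖ * Q := by
    have h9 : (fderiv ℂ (chartAt (Cm n) (u x₁) ∘ u ∘ (chartAt (Cm n) x₁).symm)
        (chartAt (Cm n) x₁ w)).det = ju (Cm n) u (u x₁) x₁ w := rfl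
    rw [h9] at h2
    calc P ≤ C * ‖ju (Cm n) u (u x₁) x₁ w‖ * Q := h2
      _ ≤ |C| * ‖ju (Cm n) u (u x₁) x₁ w‖ * Q := by
          gcongr
          exact le_abs_self C
      _ ≤ |C| * (c * ‖A‖) * Q := by gcongr
      _ = _ := by ring
  have h9 : Q ^ N ≤ M * q := by
    rw [hQ, hM, hq, ← Finset.prod_pow, ← Finset.prod_mul_distrib]
    refine Finset.prod_le_prod (fun D _ => by positivity) fun D hD => ?_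
    have h10 : (‖e₁ D w‖ ^ Δ₁ D) ^ N = ‖e₁ D w‖ ^ (N * Δ₁ D - κ₁ D) * ‖e₁ D w‖ ^ κ₁ D := by
      rw [← Real.rpow_natCast (‖e₁ D w‖) (κ₁ D), ← Real.rpow_add (hpos D hD),
        ← Real.rpow_natCast (‖e₁ D w‖ ^ Δ₁ D) N, ← Real.rpow_mul (norm_nonneg _)]
      congr 1
      ring
    rw [h10]
    refine mul_le_mul_of_nonneg_right ?_ (by positivity)
    exact Real.rpow_le_rpow (norm_nonneg _) (h5 D hD).le (by linarith [hκ D])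
  have h10 : ‖RR n p u v f₁ f N Θ₁ x₀ y₀ w‖ * (‖A‖ ^ N * q) = ‖Bv‖ ^ N * ‖H₁ w‖ := by
    have := congrArg norm heq
    rw [norm_mul, norm_mul, norm_mul, norm_pow, norm_pow, norm_prod] at this
    rw [← this, hq]
    congr 2
    exact Finset.prod_congr rfl fun D _ => (norm_pow _ _).symm
  have h11 : 0 < ‖A‖ ^ N * q := mul_pos hA0' hq0
  refine le_of_mul_le_mul_right ?_ h11
  calc ‖RR n p u v f₁ f N Θ₁ x₀ y₀ w‖ * P ^ N * (‖A‖ ^ N * q)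
      = ‖RR n p u v f₁ f N Θ₁ x₀ y₀ w‖ * (‖A‖ ^ N * q) * P ^ N := by ring
    _ = ‖Bv‖ ^ N * ‖H₁ w‖ * P ^ N := by rw [h10]
    _ ≤ b₀ ^ N * h₀ * (|C| * c * ‖A‖ * Q) ^ N := by
        gcongr
    _ = b₀ ^ N * h₀ * (|C| * c) ^ N * ‖A‖ ^ N * Q ^ N := by
        rw [mul_pow, mul_pow (|C| * c)]; ring
    _ ≤ b₀ ^ N * h₀ * (|C| * c) ^ N * ‖A‖ ^ N * (M * q) := by gcongr
    _ = _ := by ring

/-- **the bound on the fibres of `u`** -/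
theorem bd_fib [CompactSpace X₁] [T2Space X] (hu : ∀ w, HolM (Cm n) (Cm n) u w)
    (hv : ∀ w, HolM (Cm p) (Cm p) v w)
    (hf₁ : ∀ w, HolM (Cm n) (Cm p) f₁ w) (hcomm : ∀ w, f (u w) = v (f₁ w))
    (hR : RelFormT T' f₁ S₁ e₀ N 𝒜₁ κ₁ Θ₁) (h𝒜 : ∀ D ∈ 𝒜₁, Δ₁ D ≠ 0)
    (hκ : ∀ D, (κ₁ D : ℝ) ≤ N * Δ₁ D) (hΔ₁ : J.IsSNC (Cm n) Δ₁) (hΔ : J.IsSNC (Cm n) Δ)
    (hS₀ : IsClosed S₀) (hBc : IsClosed B)
    (hle : ∀ w, v (f₁ w) ∉ S₀ → u w ∉ B → LogLe n u Δ₁ Δ w)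
    {S : Set Y} (hSS : S₀ ⊆ S) (hSS₁ : ∀ y₁, v y₁ ∉ S → y₁ ∉ S₁)
    {x x₀ : X} {y₀ : Y} (hS : f x ∉ S) (hxB : x ∉ B)
    (hx : x ∈ (chartAt (Cm n) x₀).source) (hy : f x ∈ (chartAt (Cm p) y₀).source)
    (T : Finset (Set X)) (hT : ∀ D, D ∈ T ↔ Δ D ≠ 0) (e : Set X → X → ℂ)
    (he : ∀ D ∈ T, IsLocalEq (Cm n) D (e D) x) :
    ∃ C : ℝ, 0 ≤ C ∧ ∀ᶠ z in 𝓝 x, (∀ D, Δ D ≠ 0 → z ∉ D) → ∀ w, u w = z →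
      ‖RR n p u v f₁ f N Θ₁ x₀ y₀ w‖ * (∏ D ∈ T, ‖e D z‖ ^ Δ D) ^ N ≤ C := by
  classical
  have hcont : Continuous u := continuous_iff_continuousAt.2 fun w => (hu w).continuousAt
  have hcl : IsClosedMap u := hcont.isClosedMap
  have hZ : IsCompact (u ⁻¹' {x}) := (isClosed_singleton.preimage hcont).isCompact
  have hk : ∀ x₁ ∈ u ⁻¹' {x}, ∃ C : ℝ, 0 ≤ C ∧ ∀ᶠ w in 𝓝 x₁, (∀ D, Δ D ≠ 0 → u w ∉ D) →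
      ‖RR n p u v f₁ f N Θ₁ x₀ y₀ w‖ * (∏ D ∈ T, ‖e D (u w)‖ ^ Δ D) ^ N ≤ C := by
    intro x₁ hx₁
    have h1 : u x₁ = x := hx₁
    have h2 : v (f₁ x₁) ∉ S := by rw [← hcomm, h1]; exact hS
    exact bd hu hv hf₁ hcomm hR h𝒜 hκ hΔ₁ hΔ hS₀ hBc hle (hSS₁ _ h2) (fun h => h2 (hSS h))
      (by rw [h1]; exact hxB)
      (by rw [h1]; exact hx) (by rw [h1]; exact hy) T hT e (by rw [h1]; exact he)
  choose! k hk0 hk using hk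
  obtain ⟨F, hFZ, hF⟩ := hZ.elim_nhds_subcover_nhdsSet
    (U := fun x₁ => {w | (∀ D, Δ D ≠ 0 → u w ∉ D) →
      ‖RR n p u v f₁ f N Θ₁ x₀ y₀ w‖ * (∏ D ∈ T, ‖e D (u w)‖ ^ Δ D) ^ N ≤ k x₁}) hk
  refine ⟨∑ x₁ ∈ F, k x₁, Finset.sum_nonneg fun x₁ hx₁ => hk0 x₁ (hFZ x₁ hx₁), ?_⟩
  have h1 : ∀ᶠ w in 𝓝ˢ (u ⁻¹' {x}), (∀ D, Δ D ≠ 0 → u w ∉ D) →
      ‖RR n p u v f₁ f N Θ₁ x₀ y₀ w‖ * (∏ D ∈ T, ‖e D (u w)‖ ^ Δ D) ^ N ≤ ∑ x₁ ∈ F, k x₁ := by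
    filter_upwards [hF] with w hw hoff
    simp only [mem_iUnion, mem_ofPred_eq, exists_prop] at hw
    obtain ⟨x₁, hx₁, hw⟩ := hw
    exact (hw hoff).trans (Finset.single_le_sum (f := k) (fun x₂ hx₂ => hk0 x₂ (hFZ x₂ hx₂)) hx₁)
  have h2 := hcl.eventually_nhds_fiber x (eventually_nhdsSet_iff_forall.1 h1)
  filter_upwards [h2] with z hz hoff w hw
  have h3 := hz w hw (by rw [hw]; exact hoff)
  rwa [hw] at h3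

end Vale.Agent.P281.H389.TGB
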