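import Vale.Agent.P281.H969.TGB.Core
import Vale.Agent.P281.H969.TGB.LMain
import Vale.Agent.P281.H389.TGB.Bound
import Vale.Agent.P281.H176.TGB.CardB
import Vale.Agent.P281.H225.TGB.ExtR
import Vale.Agent.P281.H225.TGB.Bad
import Vale.Agent.P281.H180.TG.Pow
import Vale.Agent.P281.H282.TG.TameU
import Vale.Agent.P281.H456.TG.VSmall
import Vale.Agent.P281.H364.TD.D8
import Vale.Agent.P281.H485.Gen.Har
import Vale.Agent.P281.H364.Gen.Crit
import Vale.Agent.P281.H150.Gen.Img

/-!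
# P281, project T-GB: the goal, from B1
-/

namespace Vale.Agent.P281.H389.TGB

/-- **T-GB**, from B1 -/
theorem tgb_of_bad (bad : H969.TGB.BadStmt) : H969.TGB.TGBStmt :=
  H969.TGB.tgb_of (H364.crit H150.Gen.img) H364.TD.fibIn bad H969.TGB.liftTB H282.TG.tameU
    H456.TG.vSmall (H176.TGB.cardB H349.TG.sheet) (traceB H485.Gen.har) H180.TG.pow
    H225.TGB.extR

/-- **T-GB** -/
theorem tgb : H969.TGB.TGBStmt := tgb_of_bad H225.TGB.bad

end Vale.Agent.P281.H389.TGB
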